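import Vale.Agent.P248Z.Lim.Limits
import Vale.Agent.P248Z.Geo.Theta
import Vale.Agent.P248Z.Lens.Main

/-!
# P248, block LIM: from the Lelong monotonicity formula to the inequality for angles
-/

open Set Metric Complex Matrix MeasureTheory Filter Topology
open scoped ENNReal

namespace Vale.Agent.P248Z.Lim

variable {n N : ℕ} {F g : ℂ → ℂ} {Om OmC : Set ℂ}

/-- The cut-off function. -/
noncomputable def psi0 (x : ℝ) : ℝ := Real.smoothTransition (1 - 2 * x)

theorem psi0_contDiff : ContDiff ℝ (⊤ : ℕ∞) psi0 :=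
  Real.smoothTransition.contDiff.comp (by fun_prop)

theorem psi0_cont : Continuous psi0 := psi0_contDiff.continuous

theorem psi0_anti : Antitone psi0 := fun _ _ hxy =>
  Real.smoothTransition.monotone (by linarith)

theorem psi0_nonneg (x : ℝ) : 0 ≤ psi0 x := Real.smoothTransition.nonneg _

theorem psi0_zero (x : ℝ) (hx : 1 / 2 ≤ x) : psi0 x = 0 :=
  Real.smoothTransition.zero_of_nonpos (by linarith)

theorem Wt_ne_top : ∫⁻ σ : Fin n → ℝ, Wt psi0 σ ≠ ∞ := by
  have h1 : Integrable ((Iic (0 : ℝ)).indicator fun x => Real.exp (2 * x)) :=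
    (integrableOn_exp_mul_Iic two_pos 0).integrable_indicator measurableSet_Iic
  have h2 : Integrable fun σ : Fin n → ℝ =>
      ∏ a, (Iic (0 : ℝ)).indicator (fun x => Real.exp (2 * x)) (σ a) :=
    Integrable.fintype_prod (μ := fun _ => volume) fun _ => h1
  refine ne_top_of_le_ne_top h2.lintegral_lt_top.ne (lintegral_mono fun σ => ?_)
  refine ENNReal.ofReal_le_ofReal ?_
  by_cases hσ : ∀ a, σ a ≤ 0
  · have h3 : ∀ a, (Iic (0 : ℝ)).indicator (fun x => Real.exp (2 * x)) (σ a) =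
        Real.exp (2 * σ a) := fun a => indicator_of_mem (mem_Iic.2 (hσ a)) _
    simp only [h3]
    exact mul_le_of_le_one_left (by positivity) (Real.smoothTransition.le_one _)
  · push Not at hσ
    obtain ⟨a, ha⟩ := hσ
    have h4 : 1 / 2 ≤ ∑ a, Real.exp (2 * σ a) := by
      have h5 := Finset.single_le_sum (f := fun a => Real.exp (2 * σ a))
        (fun i _ => (Real.exp_pos _).le) (Finset.mem_univ a)
      have h6 : 1 ≤ Real.exp (2 * σ a) := Real.one_le_exp (by linarith)
      linarith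
    rw [psi0_zero _ h4, zero_mul]
    exact Finset.prod_nonneg fun a _ => indicator_nonneg (fun _ _ => (Real.exp_pos _).le) _

theorem Wt_ne_zero : ∫⁻ σ : Fin n → ℝ, Wt psi0 σ ≠ 0 := by
  refine ((lintegral_pos_iff_support (continuous_Wt psi0_cont).measurable).2 ?_).ne'
  refine ((continuous_Wt psi0_cont).isOpen_support).measure_pos _ ⟨fun _ => -(n : ℝ), ?_⟩
  rw [Function.mem_support, Wt, Ne, ENNReal.ofReal_eq_zero, not_le]
  refine mul_pos (Real.smoothTransition.pos_of_pos ?_) (by positivity)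
  rw [Finset.sum_const, Finset.card_univ, Fintype.card_fin, nsmul_eq_mul]
  have h1 : 2 * (n : ℝ) + 1 ≤ Real.exp (2 * n) := Real.add_one_le_exp _
  have h2 : Real.exp (2 * -(n : ℝ)) * Real.exp (2 * n) = 1 := by
    rw [← Real.exp_add]
    simp
  have h3 := Real.exp_pos (2 * -(n : ℝ))
  nlinarith

theorem Conf.aemeasurable_term (h : Conf F g Om OmC) (b : Fin N → Fin n → ℝ) (I : Fin n → Fin N)
    (κ : Fin N → ℕ) :
    AEMeasurable (fun z => ENNReal.ofReal (psi0 (Nm g b κ z)) *
      ENNReal.ofReal (‖((jac (Gm g b κ) z).submatrix I id).det‖ ^ 2))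
      (volume.restrict (Dom b Om)) := by
  have hD := (isOpen_Dom b h.Omopen).measurableSet
  refine ContinuousOn.aemeasurable (ENNReal.continuous_ofReal.comp_continuousOn
    (psi0_cont.comp_continuousOn (h.cont_Nm b κ))) hD |>.mul ?_
  refine ContinuousOn.aemeasurable (ENNReal.continuous_ofReal.comp_continuousOn ?_) hD
  refine (ContinuousOn.norm ?_).pow 2
  refine ContinuousOn.congr ?_ fun z hz => h.det_jac b κ hz I
  refine ContinuousOn.mul (continuousOn_finsetProd _ fun a _ => ?_) continuousOn_const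
  have h1 : DifferentiableOn ℂ (deriv fun w => g w ^ κ (I a)) Om :=
    (h.gdiff.pow _).deriv h.Omopen
  exact h1.continuousOn.comp (continuous_ell b _).continuousOn fun z hz => hz (I a)

theorem ofReal_gram (G : Fin N → (Fin n → ℂ) → ℂ) (z : Fin n → ℂ) {c : ℝ} (hc : 0 ≤ c) :
    ENNReal.ofReal (c * gram G z) = ∑ I : Fin n ↪o Fin N,
      ENNReal.ofReal c * ENNReal.ofReal (‖((jac G z).submatrix I id).det‖ ^ 2) := by
  rw [ENNReal.ofReal_mul hc, gram_eq_sum, ENNReal.ofReal_sum_of_nonneg fun I _ => by positivity,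
    Finset.mul_sum]

/-- The lower bound for the total mass. -/
theorem Conf.mass_lower (h : Conf F g Om OmC) (hL : LelongMono) (b : Fin N → Fin n → ℝ)
    {I : Fin n ↪o Fin N} (hI : (BI b I).det ≠ 0) (κ : Fin N → ℕ) (hκ : ∀ j, 2 ≤ κ j) (k : ℕ)
    (hk : ∀ a, κ (I a) = k) (hk0 : 0 < k) (hk' : ∀ j, j ∉ Finset.univ.image I → k < κ j) :
    ENNReal.ofReal ((k : ℝ) ^ n) *
        ((∫⁻ σ : Fin n → ℝ, Wt psi0 σ) * ENNReal.ofReal ((2 * Real.pi) ^ n)) ≤
      ∫⁻ z in Dom b Om, ENNReal.ofReal (psi0 (Nm g b κ z) * gram (Gm g b κ) z) := by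
  have h1 := ENNReal.Tendsto.const_mul (a := ENNReal.ofReal ((k : ℝ) ^ n))
    (h.tendsto_lower b hI κ hκ k hk hk0 hk' psi0_cont psi0_anti Wt_ne_top)
    (Or.inr ENNReal.ofReal_ne_top)
  refine le_of_tendsto h1 ?_
  filter_upwards [eventually_le_atBot (0 : ℝ)] with s hs
  have ht : 0 < Real.exp (2 * s) := Real.exp_pos _
  have h2 := hL n N (Dom b Om) (isOpen_Dom b h.Omopen) (Gm g b κ) (h.diff_Gm b κ) (1 / 2)
    (h.isCompact_sublevel b hI κ (by norm_num)) psi0 psi0_contDiff psi0_anti psi0_zero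
    (Real.exp (2 * s)) ht (Real.exp_le_one_iff.2 (by linarith))
  have h3 := h.cov' b hI κ hκ psi0_nonneg s
  have h4 : ∏ a, (κ (I a) : ℝ) = (k : ℝ) ^ n := by
    simp only [hk, Finset.prod_const, Finset.card_univ, Fintype.card_fin]
  have hne : ENNReal.ofReal (Real.exp (2 * s) ^ n) ≠ 0 := by
    simpa using pow_pos ht n
  refine (ENNReal.mul_le_mul_iff_right hne ENNReal.ofReal_ne_top).1 (le_trans ?_ h2)
  rw [← mul_assoc, mul_comm (ENNReal.ofReal (Real.exp (2 * s) ^ n)), ← h4, ← h3]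
  refine lintegral_mono fun z => ?_
  rw [ofReal_gram _ _ (psi0_nonneg _)]
  exact Finset.single_le_sum (f := fun I : Fin n ↪o Fin N =>
    ENNReal.ofReal (psi0 (Nm g b κ z / Real.exp (2 * s))) *
      ENNReal.ofReal (‖((jac (Gm g b κ) z).submatrix I id).det‖ ^ 2))
    (fun _ _ => zero_le) (Finset.mem_univ I)

/-- The upper bound for one term. -/
theorem Conf.term_upper (h : Conf F g Om OmC) (b : Fin N → Fin n → ℝ) (I : Fin n → Fin N)
    (κ : ℕ → Fin N → ℕ) (hκ : ∀ m j, m + 2 ≤ κ m j) (hκ' : ∀ m j, κ m j ≤ m + 3) :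
    ∃ e : ℕ → ℝ≥0∞, Tendsto e atTop (𝓝 0) ∧ ∀ m,
      ∫⁻ z in Dom b Om, ENNReal.ofReal (psi0 (Nm g b (κ m) z)) *
        ENNReal.ofReal (‖((jac (Gm g b (κ m)) z).submatrix I id).det‖ ^ 2) ≤
      ENNReal.ofReal (((m : ℝ) + 3) ^ n) * ((∫⁻ σ : Fin n → ℝ, Wt psi0 σ) *
        (if (BI b I).det ≠ 0 then volume (Feas F OmC b I) else 0) + e m) := by
  by_cases hI : (BI b I).det ≠ 0
  · obtain ⟨e, he, hle⟩ := h.upper b hI κ hκ psi0_cont psi0_anti Wt_ne_top
    refine ⟨e, he, fun m => ?_⟩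
    have h3 := h.cov' b hI (κ m) (fun j => by have := hκ m j; omega) psi0_nonneg 0
    simp only [mul_zero, Real.exp_zero, div_one, one_pow, ENNReal.ofReal_one, mul_one] at h3
    rw [h3, if_pos hI]
    refine mul_le_mul' (ENNReal.ofReal_le_ofReal ?_) (hle m)
    calc ∏ a, (κ m (I a) : ℝ) ≤ ∏ _a : Fin n, ((m : ℝ) + 3) :=
          Finset.prod_le_prod (fun a _ => by positivity) fun a _ => by exact_mod_cast hκ' m (I a)
      _ = ((m : ℝ) + 3) ^ n := by
          rw [Finset.prod_const, Finset.card_univ, Fintype.card_fin]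
  · refine ⟨fun _ => 0, tendsto_const_nhds, fun m => ?_⟩
    rw [setLIntegral_eq_zero (isOpen_Dom b h.Omopen).measurableSet fun z hz => ?_]
    · exact zero_le
    · rw [h.det_jac b _ hz, not_not.1 hI]
      simp

/-- The inequality for angles. -/
theorem Conf.main (h : Conf F g Om OmC) (hL : LelongMono) (b : Fin N → Fin n → ℝ)
    (hb : ∀ x : Fin n → ℝ, (∀ j, b j ⬝ᵥ x = 0) → x = 0) :
    ENNReal.ofReal ((2 * Real.pi) ^ n) ≤ ∑ I : Fin n ↪o Fin N,
      if (BI b I).det ≠ 0 then volume (Feas F OmC b I) else 0 := by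
  classical
  obtain ⟨I0, hI0⟩ := exists_det_ne_zero b hb
  have hI0' : (BI b I0).det ≠ 0 := by
    rw [det_BI]
    exact_mod_cast hI0
  let κ : ℕ → Fin N → ℕ := fun m j => if j ∈ Finset.univ.image I0 then m + 2 else m + 3
  have hκ : ∀ m j, m + 2 ≤ κ m j := fun m j => by
    simp only [κ]
    split_ifs <;> omega
  have hκ' : ∀ m j, κ m j ≤ m + 3 := fun m j => by
    simp only [κ]
    split_ifs <;> omega
  choose e he hle using fun I : Fin n ↪o Fin N => h.term_upper b I κ hκ hκ'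
  set c := ∫⁻ σ : Fin n → ℝ, Wt psi0 σ with hc
  set S := ∑ I : Fin n ↪o Fin N, if (BI b I).det ≠ 0 then volume (Feas F OmC b I) else 0 with hS
  have h1 : ∀ m : ℕ, c * ENNReal.ofReal ((2 * Real.pi) ^ n) ≤
      ENNReal.ofReal ((((m : ℝ) + 3) / (m + 2)) ^ n) * (c * S + ∑ I, e I m) := by
    intro m
    have h2 := h.mass_lower hL b hI0' (κ m) (fun j => by have := hκ m j; omega) (m + 2)
      (fun a => by simp [κ]) (by omega) (fun j hj => by simp only [κ, if_neg hj]; omega)
    have h3 : ∫⁻ z in Dom b Om, ENNReal.ofReal (psi0 (Nm g b (κ m) z) * gram (Gm g b (κ m)) z) ≤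
        ENNReal.ofReal (((m : ℝ) + 3) ^ n) * (c * S + ∑ I, e I m) := by
      simp only [ofReal_gram _ _ (psi0_nonneg _)]
      rw [lintegral_finsetSum' _ fun (I : Fin n ↪o Fin N) _ => h.aemeasurable_term b I (κ m), hS,
        Finset.mul_sum, ← Finset.sum_add_distrib, Finset.mul_sum]
      exact Finset.sum_le_sum fun I _ => hle I m
    have hpos : (0 : ℝ) < ((m : ℝ) + 2) ^ n := by positivity
    have hne : ENNReal.ofReal (((m : ℝ) + 2) ^ n) ≠ 0 := by simpa using hpos
    refine (ENNReal.mul_le_mul_iff_right hne ENNReal.ofReal_ne_top).1 ?_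
    rw [← mul_assoc (ENNReal.ofReal _) (ENNReal.ofReal _), ← ENNReal.ofReal_mul hpos.le, div_pow,
      mul_div_cancel₀ _ hpos.ne']
    refine le_trans ?_ (h2.trans h3)
    push_cast
    rfl
  have h4 : Tendsto (fun m : ℕ => ENNReal.ofReal ((((m : ℝ) + 3) / (m + 2)) ^ n)) atTop (𝓝 1) := by
    have h5 : Tendsto (fun m : ℕ => 1 + 1 / ((m : ℝ) + 2)) atTop (𝓝 (1 + 0)) :=
      (tendsto_const_nhds.div_atTop
        (tendsto_natCast_atTop_atTop.atTop_add tendsto_const_nhds)).const_add 1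
    have h6 := (ENNReal.continuous_ofReal.tendsto _).comp (h5.pow n)
    simp only [add_zero, one_pow, ENNReal.ofReal_one] at h6
    refine h6.congr fun m => ?_
    simp only [Function.comp]
    congr 2
    field_simp
    ring
  have h7 : Tendsto (fun m => c * S + ∑ I, e I m) atTop (𝓝 (c * S)) := by
    have h8 := tendsto_finsetSum Finset.univ fun I _ => he I
    rw [Finset.sum_const_zero] at h8
    simpa using h8.const_add (c * S)
  have h9 := ENNReal.Tendsto.mul h4 (Or.inl one_ne_zero) h7 (Or.inr ENNReal.one_ne_top)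
  rw [one_mul] at h9
  exact (ENNReal.mul_le_mul_iff_right Wt_ne_zero Wt_ne_top).1 (ge_of_tendsto' h9 h1)

/-- The input of the geometric block, for an abstract conformal map. -/
theorem Conf.inputTheta (h : Conf F g Om (F '' closedBall 0 1)) (hL : LelongMono) (n : ℕ) :
    Geo.InputTheta F n := by
  intro N b hb
  refine (h.main hL b hb).trans (Finset.sum_le_sum fun I _ => ?_)
  by_cases hI : (Matrix.of fun k l => b (I k) l).det ≠ 0
  · have hI' : (BI b I).det ≠ 0 := by
      rw [det_BI]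
      exact_mod_cast hI
    rw [if_pos hI, if_pos hI']
    refine measure_mono fun θ hθ => ⟨hθ.1, _, fun k => ell_Psi b hI' _ k, hθ.2⟩
  · have hI' : ¬ (BI b I).det ≠ 0 := by
      rw [det_BI]
      exact_mod_cast hI
    rw [if_neg hI, if_neg hI']

theorem conf_lens : Conf Lens.F Lens.g Lens.Om (Lens.F '' closedBall 0 1) where
  Fcont := Lens.continuousOn_F
  Fdiff := Lens.differentiableOn_F
  Fzero := Lens.F_zero
  Omopen := Lens.isOpen_Om
  Fmaps := Lens.mapsTo_F_ball
  gdiff := Lens.differentiableOn_g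
  gmaps := Lens.mapsTo_g_Om
  gF := fun _ hw => Lens.g_F (mem_ball_zero_iff.1 hw).le
  Fg := fun _ hw => Lens.F_g (Lens.Om_subset_OmC hw)
  closed := Lens.isCompact_image_closedBall.isClosed
  sub := Lens.image_closedBall ▸ Lens.Om_subset_OmC

/-- The input of the geometric block for the lens, from the monotonicity formula. -/
theorem inputTheta_lens (hL : LelongMono) (n : ℕ) : Geo.InputTheta Lens.F n :=
  conf_lens.inputTheta hL n

end Vale.Agent.P248Z.Lim
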