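import Mathlib

/-!
# P248, blocks MA and LIM: shared definitions

`jac G z` is the complex Jacobian matrix of `G = (G j)_j : ℂ^n → ℂ^N` at `z`, and `gram G z` is
the Gram determinant `det (Jᴴ J)`, the volume density of the image of `G`.
-/

namespace Vale.Agent.P248Z

/-- The complex Jacobian matrix. -/
noncomputable def jac {n N : ℕ} (G : Fin N → (Fin n → ℂ) → ℂ) (z : Fin n → ℂ) :
    Matrix (Fin N) (Fin n) ℂ :=
  fun j a => fderiv ℂ (G j) z (Pi.single a 1)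

/-- The Gram determinant of the Jacobian matrix. -/
noncomputable def gram {n N : ℕ} (G : Fin N → (Fin n → ℂ) → ℂ) (z : Fin n → ℂ) : ℝ :=
  ((jac G z).conjTranspose * jac G z).det.re

/-- The statement of the Lelong monotonicity formula (block MA), as a proposition. -/
def LelongMono : Prop :=
  ∀ (n N : ℕ) (D : Set (Fin n → ℂ)), IsOpen D →
    ∀ (G : Fin N → (Fin n → ℂ) → ℂ), (∀ j, DifferentiableOn ℂ (G j) D) →
    ∀ (τ : ℝ), IsCompact {z | z ∈ D ∧ ∑ j, ‖G j z‖ ^ 2 ≤ τ} →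
    ∀ (ψ : ℝ → ℝ), ContDiff ℝ (⊤ : ℕ∞) ψ → Antitone ψ → (∀ s, τ ≤ s → ψ s = 0) →
    ∀ (t : ℝ), 0 < t → t ≤ 1 →
      ∫⁻ z in D, ENNReal.ofReal (ψ ((∑ j, ‖G j z‖ ^ 2) / t) * gram G z) ≤
        ENNReal.ofReal (t ^ n) *
          ∫⁻ z in D, ENNReal.ofReal (ψ (∑ j, ‖G j z‖ ^ 2) * gram G z)

end Vale.Agent.P248Z
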