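import Vale.Agent.P248Z.Lim.Defs

/-!
# P248, block LIM: the Cauchy-Binet formula for Gram determinants
-/

open Finset Matrix

namespace Vale.Agent.P248Z.Lim

variable {n N : ℕ}

theorem det_mul_sum (B : Matrix (Fin n) (Fin N) ℂ) (M : Matrix (Fin N) (Fin n) ℂ) :
    ∑ L : Fin n → Fin N, (B.submatrix id L).det * ∏ c, M (L c) c = (B * M).det := by
  rw [Matrix.det_apply']
  have h1 : ∀ σ : Equiv.Perm (Fin n), ∏ c, (B * M) (σ c) c =
      ∑ L : Fin n → Fin N, ∏ c, B (σ c) (L c) * M (L c) c := by
    intro σ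
    simp only [Matrix.mul_apply]
    rw [Finset.prod_univ_sum, Fintype.piFinset_univ]
  simp only [h1, Finset.mul_sum]
  rw [Finset.sum_comm]
  refine Finset.sum_congr rfl fun L _ => ?_
  rw [Matrix.det_apply', Finset.sum_mul]
  refine Finset.sum_congr rfl fun σ _ => ?_
  simp only [Matrix.submatrix_apply, id, Finset.prod_mul_distrib]
  ring

/-- A sum over all maps of a function that vanishes on the non-injective maps is a sum over
order embeddings and permutations. -/
theorem sum_maps_eq (h : (Fin n → Fin N) → ℂ) (h0 : ∀ L, ¬ Function.Injective L → h L = 0) :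
    ∑ L, h L = ∑ I : Fin n ↪o Fin N, ∑ σ : Equiv.Perm (Fin n), h (I ∘ σ) := by
  rw [← Fintype.sum_prod_type']
  symm
  refine Fintype.sum_of_injective (fun p : (Fin n ↪o Fin N) × Equiv.Perm (Fin n) => p.1 ∘ p.2)
    ?_ _ _ ?_ (fun _ => rfl)
  · rintro ⟨I, σ⟩ ⟨I', σ'⟩ hp
    simp only at hp
    have hr : Set.range I = Set.range I' := by
      have h1 := congrArg Set.range hp
      rwa [σ.surjective.range_comp, σ'.surjective.range_comp] at h1
    have hI : I = I' := OrderEmbedding.range_inj.1 hr
    subst hI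
    have hσ : σ = σ' := by
      ext a
      have h2 := congrFun hp a
      simp only [Function.comp] at h2
      rw [I.injective h2]
    rw [hσ]
  · intro L hL
    apply h0
    intro hinj
    apply hL
    have hm : StrictMono (L ∘ Tuple.sort L) :=
      (Tuple.monotone_sort L).strictMono_of_injective (hinj.comp (Tuple.sort L).injective)
    refine ⟨(OrderEmbedding.ofStrictMono _ hm, (Tuple.sort L).symm), ?_⟩
    ext a
    simp

/-- Cauchy-Binet. -/
theorem det_mul_eq_sum (B : Matrix (Fin n) (Fin N) ℂ) (M : Matrix (Fin N) (Fin n) ℂ) :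
    (B * M).det = ∑ I : Fin n ↪o Fin N, (B.submatrix id I).det * (M.submatrix I id).det := by
  rw [← det_mul_sum, sum_maps_eq]
  · refine Finset.sum_congr rfl fun I _ => ?_
    rw [Matrix.det_apply' (M.submatrix I id), Finset.mul_sum]
    refine Finset.sum_congr rfl fun σ _ => ?_
    have h1 : B.submatrix id (I ∘ σ) = (B.submatrix id I).submatrix id σ := rfl
    rw [h1, Matrix.det_permute']
    simp only [Function.comp, Matrix.submatrix_apply, id]
    ring
  · intro L hL
    have : (B.submatrix id L).det = 0 := by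
      rw [Function.Injective] at hL
      push Not at hL
      obtain ⟨a, c, hac, hne⟩ := hL
      refine Matrix.det_zero_of_column_eq hne fun k => ?_
      simp [hac]
    rw [this, zero_mul]

theorem gram_det_eq_sum (J : Matrix (Fin N) (Fin n) ℂ) :
    (J.conjTranspose * J).det.re = ∑ I : Fin n ↪o Fin N, ‖(J.submatrix I id).det‖ ^ 2 := by
  rw [det_mul_eq_sum, Complex.re_sum]
  refine Finset.sum_congr rfl fun I _ => ?_
  have h1 : J.conjTranspose.submatrix id I = (J.submatrix I id).conjTranspose := rfl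
  rw [h1, Matrix.det_conjTranspose, mul_comm]
  simp only [RCLike.star_def]
  rw [Complex.mul_conj, Complex.ofReal_re, Complex.normSq_eq_norm_sq]

theorem gram_eq_sum (G : Fin N → (Fin n → ℂ) → ℂ) (z : Fin n → ℂ) :
    gram G z = ∑ I : Fin n ↪o Fin N, ‖((jac G z).submatrix I id).det‖ ^ 2 :=
  gram_det_eq_sum _

/-- A spanning family contains a basis. -/
theorem exists_det_ne_zero (b : Fin N → Fin n → ℝ)
    (hb : ∀ x : Fin n → ℝ, (∀ j, b j ⬝ᵥ x = 0) → x = 0) :
    ∃ I : Fin n ↪o Fin N, (Matrix.of fun k l => b (I k) l).det ≠ 0 := by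
  by_contra hcon
  push Not at hcon
  set B : Matrix (Fin N) (Fin n) ℝ := Matrix.of b with hB
  have h1 : (B.transpose * B).det ≠ 0 := by
    intro h0
    obtain ⟨x, hx, hx0⟩ := Matrix.exists_mulVec_eq_zero_iff.2 h0
    apply hx
    apply hb
    have h2 : (B *ᵥ x) ⬝ᵥ (B *ᵥ x) = 0 := by
      rw [Matrix.dotProduct_mulVec, Matrix.vecMul_mulVec, ← Matrix.dotProduct_mulVec, hx0,
        dotProduct_zero]
    have h3 : B *ᵥ x = 0 := dotProduct_self_eq_zero.1 h2
    intro j
    exact congrFun h3 j
  apply h1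
  have h4 : ((B.transpose * B).det : ℂ) =
      ((B.transpose.map (algebraMap ℝ ℂ)) * (B.map (algebraMap ℝ ℂ))).det := by
    rw [← Matrix.map_mul]
    exact (RingHom.map_det (algebraMap ℝ ℂ) (B.transpose * B))
  have h5 : ((B.transpose * B).det : ℂ) = 0 := by
    rw [h4, det_mul_eq_sum]
    refine Finset.sum_eq_zero fun I _ => ?_
    have h6 : ((B.map (algebraMap ℝ ℂ)).submatrix I id).det =
        algebraMap ℝ ℂ (Matrix.of fun k l => b (I k) l).det :=
      (RingHom.map_det (algebraMap ℝ ℂ) (Matrix.of fun k l => b (I k) l)).symm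
    rw [h6, hcon I, map_zero, mul_zero]
  exact_mod_cast h5

end Vale.Agent.P248Z.Lim
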