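import Vale.Agent.P248Z.Lim.Setup

/-!
# P248, block LIM: the change of variables to logarithmic coordinates
-/

open Set Metric Complex Matrix MeasureTheory
open scoped ENNReal

namespace Vale.Agent.P248Z.Lim

variable {n N : ℕ} {F g : ℂ → ℂ} {Om OmC : Set ℂ}

/-- The real determinant of a complex matrix. -/
theorem abs_det_real (M : Matrix (Fin n) (Fin n) ℂ) :
    |((LinearMap.toContinuousLinearMap (Matrix.toLin' M)).restrictScalars ℝ).det| =
      ‖M.det‖ ^ 2 := by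
  have h1 : ((LinearMap.toContinuousLinearMap (Matrix.toLin' M)).restrictScalars ℝ).det =
      Complex.normSq M.det := by
    rw [ContinuousLinearMap.det]
    have h2 : (((LinearMap.toContinuousLinearMap (Matrix.toLin' M)).restrictScalars ℝ :
        (Fin n → ℂ) →L[ℝ] (Fin n → ℂ)) : (Fin n → ℂ) →ₗ[ℝ] (Fin n → ℂ)) =
        (Matrix.toLin' M).restrictScalars ℝ := rfl
    rw [h2, LinearMap.det_restrictScalars, Algebra.norm_complex_apply, LinearMap.det_toLin']
  rw [h1, Complex.normSq_eq_norm_sq, abs_of_nonneg (by positivity)]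

theorem Conf.hasDerivAt_Fexp (h : Conf F g Om OmC) {ζ : ℂ} (hζ : ζ.re < 0) :
    HasDerivAt (fun x => F (exp x)) (deriv F (exp ζ) * exp ζ) ζ := by
  have h1 : DifferentiableAt ℂ F (exp ζ) :=
    h.Fdiff.differentiableAt (isOpen_ball.mem_nhds (exp_mem_ball hζ))
  exact h1.hasDerivAt.comp ζ (Complex.hasDerivAt_exp ζ)

/-- The one-dimensional chain rule. -/
theorem Conf.chain (h : Conf F g Om OmC) (k : ℕ) {ζ : ℂ} (hζ : ζ.re < 0) :
    deriv (fun w => g w ^ k) (F (exp ζ)) * (deriv F (exp ζ) * exp ζ) = k * exp ζ ^ k := by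
  have h1 : DifferentiableAt ℂ (fun w => g w ^ k) (F (exp ζ)) :=
    (h.gdiff.differentiableAt (h.Omopen.mem_nhds (h.Fmaps (exp_mem_ball hζ)))).pow _
  have h2 : HasDerivAt (fun x => g (F (exp x)) ^ k)
      (deriv (fun w => g w ^ k) (F (exp ζ)) * (deriv F (exp ζ) * exp ζ)) ζ :=
    HasDerivAt.comp (h₂ := fun w => g w ^ k) (h := fun x => F (exp x)) ζ h1.hasDerivAt
      (h.hasDerivAt_Fexp hζ)
  have h3 : HasDerivAt (fun x => exp (k * x)) (exp (k * ζ) * k) ζ := by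
    have := ((hasDerivAt_id ζ).const_mul (k : ℂ)).cexp
    simpa using this
  have h4 : (fun x => g (F (exp x)) ^ k) =ᶠ[nhds ζ] fun x => exp (k * x) := by
    have h5 : {x : ℂ | x.re < 0} ∈ nhds ζ :=
      (isOpen_lt Complex.continuous_re continuous_const).mem_nhds hζ
    filter_upwards [h5] with x hx
    rw [h.gF _ (exp_mem_ball hx), Complex.exp_nat_mul]
  have h6 := h2.unique (h3.congr_of_eventuallyEq h4)
  rw [h6, Complex.exp_nat_mul, mul_comm]

theorem Conf.hasFDerivAt_Phi (h : Conf F g Om OmC) (b : Fin N → Fin n → ℝ) (I : Fin n → Fin N)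
    {ζ : Fin n → ℂ} (hζ : ∀ a, (ζ a).re < 0) :
    HasFDerivAt (Phi F b I) (LinearMap.toContinuousLinearMap (Matrix.toLin'
      ((BI b I)⁻¹ * Matrix.diagonal fun a => deriv F (exp (ζ a)) * exp (ζ a)))) ζ := by
  have h1 : HasFDerivAt (fun ζ : Fin n → ℂ => fun a => F (exp (ζ a)))
      (LinearMap.toContinuousLinearMap (Matrix.toLin'
        (Matrix.diagonal fun a => deriv F (exp (ζ a)) * exp (ζ a)))) ζ := by
    rw [hasFDerivAt_pi']
    intro a
    have h2 := (h.hasDerivAt_Fexp (hζ a)).comp_hasFDerivAt ζ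
      ((ContinuousLinearMap.proj a : (Fin n → ℂ) →L[ℂ] ℂ).hasFDerivAt (x := ζ))
    refine HasFDerivAt.congr_fderiv h2 ?_
    ext v
    simp [Matrix.mulVec_diagonal]
  have h3 := (LinearMap.toContinuousLinearMap (Matrix.toLin' (BI b I)⁻¹)).hasFDerivAt.comp ζ h1
  refine HasFDerivAt.congr_fderiv h3 ?_
  ext v a
  simp [Matrix.toLin'_mul]

theorem Conf.continuousOn_Phi (h : Conf F g Om OmC) (b : Fin N → Fin n → ℝ) (I : Fin n → Fin N) :
    ContinuousOn (Phi F b I) {ζ | ∀ a, (ζ a).re < 0} := fun _ hζ =>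
  (h.hasFDerivAt_Phi b I hζ).continuousAt.continuousWithinAt

theorem isOpen_re_neg : IsOpen {ζ : Fin n → ℂ | ∀ a, (ζ a).re < 0} := by
  have : {ζ : Fin n → ℂ | ∀ a, (ζ a).re < 0} = ⋂ a, {ζ | (ζ a).re < 0} := by
    ext ζ
    simp
  rw [this]
  exact isOpen_iInter_of_finite fun a => isOpen_lt (by fun_prop) continuous_const

theorem Conf.isOpen_pre (h : Conf F g Om OmC) (b : Fin N → Fin n → ℝ) (I : Fin n → Fin N) :
    IsOpen ({ζ | ∀ a, (ζ a).re < 0} ∩ Phi F b I ⁻¹' Dom b Om) :=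
  (h.continuousOn_Phi b I).isOpen_inter_preimage isOpen_re_neg (isOpen_Dom b h.Omopen)

theorem measurableSet_im : MeasurableSet
    {ζ : Fin n → ℂ | ∀ a, (ζ a).im ∈ Ioc (-Real.pi) Real.pi} := by
  have : {ζ : Fin n → ℂ | ∀ a, (ζ a).im ∈ Ioc (-Real.pi) Real.pi} =
      ⋂ a, (fun ζ : Fin n → ℂ => (ζ a).im) ⁻¹' Ioc (-Real.pi) Real.pi := by
    ext ζ
    simp
  rw [this]
  exact MeasurableSet.iInter fun a => measurableSet_Ioc.preimage (by fun_prop)

theorem strip_inter (b : Fin N → Fin n → ℝ) (I : Fin n → Fin N) :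
    Strip n ∩ Phi F b I ⁻¹' Dom b Om = ({ζ | ∀ a, (ζ a).re < 0} ∩ Phi F b I ⁻¹' Dom b Om) ∩
      {ζ : Fin n → ℂ | ∀ a, (ζ a).im ∈ Ioc (-Real.pi) Real.pi} := by
  ext ζ
  simp only [Strip, mem_inter_iff, mem_ofPred_eq, mem_preimage, forall_and]
  tauto

theorem Conf.measurableSet_pre (h : Conf F g Om OmC) (b : Fin N → Fin n → ℝ) (I : Fin n → Fin N) :
    MeasurableSet (Strip n ∩ Phi F b I ⁻¹' Dom b Om) := by
  rw [strip_inter]
  exact (h.isOpen_pre b I).measurableSet.inter measurableSet_im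

theorem Conf.injOn_Phi (h : Conf F g Om OmC) (b : Fin N → Fin n → ℝ) {I : Fin n → Fin N}
    (hI : (BI b I).det ≠ 0) : InjOn (Phi F b I) (Strip n) := by
  intro ζ hζ ξ hξ heq
  funext a
  have h1 := h.g_ell_Phi b hI (hζ a).1
  have h2 := h.g_ell_Phi b hI (hξ a).1
  rw [heq, h2] at h1
  exact Complex.exp_inj_of_neg_pi_lt_of_le_pi (hζ a).2.1 (hζ a).2.2 (hξ a).2.1 (hξ a).2.2 h1.symm

theorem Conf.image_Phi (h : Conf F g Om OmC) (b : Fin N → Fin n → ℝ) {I : Fin n → Fin N}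
    (hI : (BI b I).det ≠ 0) :
    Phi F b I '' (Strip n ∩ Phi F b I ⁻¹' Dom b Om) =
      Dom b Om ∩ {z | ∀ a, ell b (I a) z ≠ 0} := by
  ext z
  constructor
  · rintro ⟨ζ, ⟨hζ, hD⟩, rfl⟩
    refine ⟨hD, fun a h0 => ?_⟩
    have h1 := h.g_ell_Phi b hI (hζ a).1
    rw [h0, h.g_zero] at h1
    exact Complex.exp_ne_zero _ h1.symm
  · rintro ⟨hD, h0⟩
    have hg0 : ∀ a, g (ell b (I a) z) ≠ 0 := by
      intro a h1
      have h2 := h.Fg _ (hD (I a))
      rw [h1, h.Fzero] at h2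
      exact h0 a h2.symm
    have hz : z = Phi F b I fun a => log (g (ell b (I a) z)) := by
      refine eq_Psi b hI fun a => ?_
      rw [Complex.exp_log (hg0 a), h.Fg _ (hD (I a))]
    refine ⟨fun a => log (g (ell b (I a) z)), ⟨fun a => ⟨?_, ?_⟩, ?_⟩, hz.symm⟩
    · rw [Complex.log_re]
      exact Real.log_neg (norm_pos_iff.2 (hg0 a)) (mem_ball_zero_iff.1 (h.gmaps (hD (I a))))
    · rw [Complex.log_im]
      exact ⟨Complex.neg_pi_lt_arg _, Complex.arg_le_pi _⟩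
    · rw [mem_preimage, ← hz]
      exact hD

/-- The change of variables. -/
theorem Conf.cov (h : Conf F g Om OmC) (b : Fin N → Fin n → ℝ) {I : Fin n → Fin N}
    (hI : (BI b I).det ≠ 0) (κ : Fin N → ℕ) (hκ : ∀ j, 2 ≤ κ j) (f : (Fin n → ℂ) → ℝ≥0∞) :
    ∫⁻ z in Dom b Om, f z * ENNReal.ofReal (‖((jac (Gm g b κ) z).submatrix I id).det‖ ^ 2) =
      ∫⁻ ζ in Strip n ∩ Phi F b I ⁻¹' Dom b Om, f (Phi F b I ζ) *
        ENNReal.ofReal (∏ a, (κ (I a) : ℝ) ^ 2 * Real.exp (2 * (κ (I a) * (ζ a).re))) := by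
  have hU : MeasurableSet {z : Fin n → ℂ | ∀ a, ell b (I a) z ≠ 0} := by
    have : {z : Fin n → ℂ | ∀ a, ell b (I a) z ≠ 0} = ⋂ a, (ell b (I a) ⁻¹' {0})ᶜ := by
      ext z
      simp
    rw [this]
    exact MeasurableSet.iInter fun a =>
      ((measurableSet_singleton 0).preimage (continuous_ell b (I a)).measurable).compl
  rw [← lintegral_inter_add_sdiff _ _ hU]
  have hzero : ∫⁻ z in Dom b Om \ {z : Fin n → ℂ | ∀ a, ell b (I a) z ≠ 0},
      f z * ENNReal.ofReal (‖((jac (Gm g b κ) z).submatrix I id).det‖ ^ 2) = 0 := by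
    refine setLIntegral_eq_zero ((isOpen_Dom b h.Omopen).measurableSet.diff hU) fun z hz => ?_
    obtain ⟨hD, hz0⟩ := hz
    simp only [mem_ofPred_eq, not_forall, not_not] at hz0
    obtain ⟨a, ha⟩ := hz0
    have h1 : deriv (fun w => g w ^ κ (I a)) (ell b (I a) z) = 0 := by
      have h2 : DifferentiableAt ℂ g (ell b (I a) z) :=
        h.gdiff.differentiableAt (h.Omopen.mem_nhds (hD (I a)))
      rw [(h2.hasDerivAt.fun_pow (κ (I a))).deriv, ha, h.g_zero,
        zero_pow (by have := hκ (I a); omega)]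
      simp
    have h3 : ((jac (Gm g b κ) z).submatrix I id).det = 0 := by
      rw [h.det_jac b κ hD, Finset.prod_eq_zero (Finset.mem_univ a) h1, zero_mul]
    simp [h3]
  rw [hzero, add_zero, ← h.image_Phi b hI,
    lintegral_image_eq_lintegral_abs_det_fderiv_mul volume (h.measurableSet_pre b I)
      (fun ζ hζ => ((h.hasFDerivAt_Phi b I fun a => (hζ.1 a).1).restrictScalars ℝ).hasFDerivWithinAt)
      ((h.injOn_Phi b hI).mono inter_subset_left)]
  refine setLIntegral_congr_fun (h.measurableSet_pre b I) fun ζ hζ => ?_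
  obtain ⟨hζ, hD⟩ := hζ
  rw [abs_det_real, mul_left_comm, ← ENNReal.ofReal_mul (by positivity), ← mul_pow, ← norm_mul,
    h.det_jac b κ hD, Matrix.det_mul, Matrix.det_diagonal, Matrix.det_nonsing_inv]
  congr 2
  have h4 : Ring.inverse (BI b I).det * (∏ a, deriv F (exp (ζ a)) * exp (ζ a)) *
      ((∏ a, deriv (fun w => g w ^ κ (I a)) (ell b (I a) (Phi F b I ζ))) * (BI b I).det) =
      ∏ a, (κ (I a) : ℂ) * exp (ζ a) ^ κ (I a) := by
    have h5 : ∀ a, (κ (I a) : ℂ) * exp (ζ a) ^ κ (I a) =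
        deriv (fun w => g w ^ κ (I a)) (ell b (I a) (Phi F b I ζ)) *
          (deriv F (exp (ζ a)) * exp (ζ a)) := by
      intro a
      rw [Phi, ell_Psi b hI, h.chain _ (hζ a).1]
    rw [Finset.prod_congr rfl fun a _ => h5 a, Finset.prod_mul_distrib (s := Finset.univ)
      (f := fun a => deriv (fun w => g w ^ κ (I a)) (ell b (I a) (Phi F b I ζ))),
      Ring.inverse_eq_inv]
    field_simp
  rw [h4, norm_prod, ← Finset.prod_pow]
  refine Finset.prod_congr rfl fun a _ => ?_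
  rw [norm_mul, norm_pow, Complex.norm_exp, Complex.norm_natCast, mul_pow, ← Real.exp_nat_mul,
    ← Real.exp_nat_mul]
  norm_num

end Vale.Agent.P248Z.Lim
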