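import Vale.Agent.P248Z.Lim.Param

/-!
# P248, block LIM: the two limits
-/

open Set Metric Complex Matrix MeasureTheory Filter Topology
open scoped ENNReal

namespace Vale.Agent.P248Z.Lim

variable {n N : ℕ} {F g : ℂ → ℂ} {Om OmC : Set ℂ}

/-- The limit weight. -/
noncomputable def Wt (ψ : ℝ → ℝ) (σ : Fin n → ℝ) : ℝ≥0∞ :=
  ENNReal.ofReal (ψ (∑ a, Real.exp (2 * σ a)) * ∏ a, Real.exp (2 * σ a))

/-- The box of angles. -/
def Box (n : ℕ) : Set (Fin n → ℝ) := Set.pi univ fun _ => Ioc (-Real.pi) Real.pi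

/-- The feasible angles. -/
def Feas (F : ℂ → ℂ) (OmC : Set ℂ) (b : Fin N → Fin n → ℝ) (I : Fin n → Fin N) :
    Set (Fin n → ℝ) :=
  {θ | (∀ k, θ k ∈ Icc (-Real.pi) Real.pi) ∧
    ∀ j, ell b j (Psi F b I fun a => exp (θ a * Complex.I)) ∈ OmC}

theorem measurableSet_Box : MeasurableSet (Box n) :=
  MeasurableSet.univ_pi fun _ => measurableSet_Ioc

theorem volume_Box : volume (Box n) = ENNReal.ofReal ((2 * Real.pi) ^ n) := by
  rw [Box, Real.volume_pi_Ioc, Finset.prod_const, Finset.card_univ, Fintype.card_fin,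
    ENNReal.ofReal_pow (by positivity)]
  congr 2
  ring

theorem continuous_Wt {ψ : ℝ → ℝ} (hψ : Continuous ψ) : Continuous (Wt (n := n) ψ) := by
  unfold Wt
  exact ENNReal.continuous_ofReal.comp (by fun_prop)

theorem lintegral_Wt_mul {ψ : ℝ → ℝ} (hψ : Continuous ψ) {A : Set (Fin n → ℝ)}
    (hA : MeasurableSet A) :
    ∫⁻ p : (Fin n → ℝ) × (Fin n → ℝ), Wt ψ p.1 * A.indicator 1 p.2 =
      (∫⁻ σ : Fin n → ℝ, Wt ψ σ) * volume A := by
  rw [Measure.volume_eq_prod, lintegral_prod_mul (continuous_Wt hψ).measurable.aemeasurable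
    ((measurable_one.indicator hA).aemeasurable), lintegral_indicator_one hA]

theorem Conf.continuousOn_Psi (h : Conf F g Om OmC) (b : Fin N → Fin n → ℝ) (I : Fin n → Fin N) :
    ContinuousOn (Psi F b I) (Set.pi univ fun _ => closedBall 0 1) := by
  have h1 : ContinuousOn (fun w : Fin n → ℂ => fun a => F (w a))
      (Set.pi univ fun _ => closedBall 0 1) :=
    continuousOn_pi.2 fun a => h.Fcont.comp (continuous_apply a).continuousOn
      fun w hw => hw a (mem_univ a)
  have h2 : Continuous fun y : Fin n → ℂ => (BI b I)⁻¹ *ᵥ y := by fun_prop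
  exact h2.comp_continuousOn h1

theorem isClosed_forall_ell (b : Fin N → Fin n → ℝ) (hC : IsClosed OmC) :
    IsClosed {z : Fin n → ℂ | ∀ j, ell b j z ∈ OmC} := by
  have : {z : Fin n → ℂ | ∀ j, ell b j z ∈ OmC} = ⋂ j, ell b j ⁻¹' OmC := by
    ext z
    simp
  rw [this]
  exact isClosed_iInter fun j => hC.preimage (continuous_ell b j)

theorem exp_I_mem (θ : Fin n → ℝ) :
    (fun a => exp (θ a * Complex.I)) ∈ Set.pi univ fun _ : Fin n => closedBall (0 : ℂ) 1 := by
  intro a _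
  simp

theorem Conf.measurableSet_Feas (h : Conf F g Om OmC) (b : Fin N → Fin n → ℝ)
    (I : Fin n → Fin N) : MeasurableSet (Feas F OmC b I) := by
  have h1 : Continuous fun θ : Fin n → ℝ => Psi F b I fun a => exp (θ a * Complex.I) :=
    (h.continuousOn_Psi b I).comp_continuous (by fun_prop) exp_I_mem
  have h2 : Feas F OmC b I = (Set.pi univ fun _ => Icc (-Real.pi) Real.pi) ∩
      (fun θ : Fin n → ℝ => Psi F b I fun a => exp (θ a * Complex.I)) ⁻¹'
        {z : Fin n → ℂ | ∀ j, ell b j z ∈ OmC} := by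
    ext θ
    simp only [Feas, mem_ofPred_eq, mem_inter_iff, Set.mem_pi, mem_univ, forall_true_left,
      mem_preimage]
  rw [h2]
  exact (MeasurableSet.univ_pi fun _ => measurableSet_Icc).inter
    ((isClosed_forall_ell b h.closed).preimage h1).measurableSet

theorem Conf.measurableSet_Reg (h : Conf F g Om OmC) (b : Fin N → Fin n → ℝ) (I : Fin n → Fin N)
    (κ : Fin N → ℕ) (s : ℝ) : MeasurableSet (Reg F Om b I κ s) :=
  (h.measurableSet_pre b I).preimage (continuous_Tm _ s).measurable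

theorem Conf.aemeasurable_Xf (h : Conf F g Om OmC) (b : Fin N → Fin n → ℝ) (I : Fin n → Fin N)
    (κ : Fin N → ℕ) {ψ : ℝ → ℝ} (hψ : Continuous ψ) (s : ℝ) :
    AEMeasurable (Xf F g Om b I κ ψ s) volume := by
  unfold Xf
  refine (aemeasurable_indicator_iff (h.measurableSet_Reg b I κ s)).2 ?_
  refine ContinuousOn.aemeasurable ?_ (h.measurableSet_Reg b I κ s)
  refine ENNReal.continuous_ofReal.comp_continuousOn (ContinuousOn.mul ?_ (by fun_prop))
  refine hψ.comp_continuousOn (ContinuousOn.div_const ?_ _)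
  refine (h.cont_Nm b κ).comp ?_ fun p hp => hp.2
  exact (h.continuousOn_Phi b I).comp (continuous_Tm _ s).continuousOn
    fun p hp a => (hp.1 a).1

/-- Splitting of `Nm` in rescaled coordinates. -/
theorem Conf.Nm_split (h : Conf F g Om OmC) (b : Fin N → Fin n → ℝ) {I : Fin n → Fin N}
    (hI : (BI b I).det ≠ 0) (κ : Fin N → ℕ) (hκ : ∀ j, 2 ≤ κ j) (s : ℝ)
    (p : (Fin n → ℝ) × (Fin n → ℝ)) (hp : ∀ a, (Tm (fun a => (κ (I a) : ℝ)) s p a).re < 0) :
    Nm g b κ (Phi F b I (Tm (fun a => (κ (I a) : ℝ)) s p)) / Real.exp (2 * s) =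
      ∑ a, Real.exp (2 * p.1 a) + ∑ j ∈ (Finset.univ.image I)ᶜ,
        ‖Gm g b κ j (Phi F b I (Tm (fun a => (κ (I a) : ℝ)) s p))‖ ^ 2 / Real.exp (2 * s) := by
  rw [Nm, ← Finset.sum_add_sum_compl (Finset.univ.image I),
    Finset.sum_image (injective_of_det b hI).injOn, add_div, Finset.sum_div, Finset.sum_div]
  congr 1
  refine Finset.sum_congr rfl fun a _ => ?_
  have hk : (κ (I a) : ℝ) ≠ 0 := by
    have := hκ (I a)
    positivity
  rw [Gm, h.g_ell_Phi b hI (hp a), norm_pow, Complex.norm_exp, Tm_re, ← Real.exp_nat_mul,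
    ← Real.exp_nat_mul, mul_div_cancel₀ _ hk, ← Real.exp_sub]
  congr 1
  push_cast
  ring

theorem Conf.Xf_le (h : Conf F g Om OmC) (b : Fin N → Fin n → ℝ) {I : Fin n → Fin N}
    (hI : (BI b I).det ≠ 0) (κ : Fin N → ℕ) (hκ : ∀ j, 2 ≤ κ j) {ψ : ℝ → ℝ} (hψ : Antitone ψ)
    (s : ℝ) (p : (Fin n → ℝ) × (Fin n → ℝ)) :
    Xf F g Om b I κ ψ s p ≤ Wt ψ p.1 * (Box n).indicator 1 p.2 := by
  by_cases hp : p ∈ Reg F Om b I κ s
  · have h1 : p.2 ∈ Box n := fun a _ => by simpa using (hp.1 a).2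
    rw [Xf, indicator_of_mem hp, indicator_of_mem h1, Pi.one_apply, mul_one, Wt]
    refine ENNReal.ofReal_le_ofReal (mul_le_mul_of_nonneg_right (hψ ?_) (by positivity))
    rw [h.Nm_split b hI κ hκ s p fun a => (hp.1 a).1]
    exact le_add_of_nonneg_right (Finset.sum_nonneg fun j _ => by positivity)
  · rw [Xf, indicator_of_notMem hp]
    exact zero_le

theorem Conf.differentiableAt_Psi (h : Conf F g Om OmC) (b : Fin N → Fin n → ℝ)
    (I : Fin n → Fin N) : DifferentiableAt ℂ (Psi F b I) 0 := by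
  have h0 : DifferentiableAt ℂ F 0 :=
    h.Fdiff.differentiableAt (isOpen_ball.mem_nhds (mem_ball_self one_pos))
  have h1 : DifferentiableAt ℂ (fun w : Fin n → ℂ => fun a => F (w a)) 0 :=
    differentiableAt_pi.2 fun a =>
      DifferentiableAt.comp (g := F) (f := fun w : Fin n → ℂ => w a) 0 h0
        (differentiableAt_apply a 0)
  exact (LinearMap.toContinuousLinearMap (Matrix.toLin' (BI b I)⁻¹)).differentiableAt.comp 0 h1

theorem Conf.Psi_zero (h : Conf F g Om OmC) (b : Fin N → Fin n → ℝ) (I : Fin n → Fin N) :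
    Psi F b I 0 = 0 := by
  have : (fun a : Fin n => F ((0 : Fin n → ℂ) a)) = 0 := funext fun a => h.Fzero
  rw [Psi, this, Matrix.mulVec_zero]

/-- The pointwise limit at the pole. -/
theorem Conf.tendsto_Xf_lower (h : Conf F g Om OmC) (b : Fin N → Fin n → ℝ) {I : Fin n → Fin N}
    (hI : (BI b I).det ≠ 0) (κ : Fin N → ℕ) (hκ : ∀ j, 2 ≤ κ j) (k : ℕ) (hk : ∀ a, κ (I a) = k)
    (hk0 : 0 < k) (hk' : ∀ j, j ∉ Finset.univ.image I → k < κ j) {ψ : ℝ → ℝ} (hψc : Continuous ψ)
    (hψ : Antitone ψ) (p : (Fin n → ℝ) × (Fin n → ℝ)) :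
    Tendsto (fun s => Xf F g Om b I κ ψ s p) atBot (𝓝 (Wt ψ p.1 * (Box n).indicator 1 p.2)) := by
  by_cases hp : p.2 ∈ Box n
  swap
  · have h1 : ∀ s, Xf F g Om b I κ ψ s p = 0 := fun s => by
      have := h.Xf_le b hI κ hκ hψ s p
      rw [indicator_of_notMem hp, mul_zero] at this
      exact le_antisymm this zero_le
    simp only [h1, indicator_of_notMem hp, mul_zero]
    exact tendsto_const_nhds
  have hkR : (0 : ℝ) < k := by exact_mod_cast hk0
  set κI : Fin n → ℝ := fun a => (κ (I a) : ℝ) with hκI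
  have hκk : ∀ a, κI a = k := fun a => by simp only [hκI, hk]
  let r : ℝ → ℝ := fun s => Real.exp (s / k)
  have hr0 : ∀ s, 0 < r s := fun s => Real.exp_pos _
  have hr : Tendsto r atBot (𝓝 0) :=
    Real.tendsto_exp_atBot.comp (tendsto_id.atBot_div_const hkR)
  let w : ℝ → Fin n → ℂ := fun s a => exp (Tm κI s p a)
  have hw : ∀ s, w s = r s • w 0 := by
    intro s
    funext a
    simp only [w, r, Pi.smul_apply, Complex.real_smul, Complex.ofReal_exp, ← Complex.exp_add]
    congr 1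
    simp only [Tm, hκk]
    push_cast
    ring
  have hw0 : Tendsto w atBot (𝓝 0) := by
    have := hr.smul_const (w 0)
    rw [zero_smul] at this
    exact this.congr fun s => (hw s).symm
  have hPhi : ∀ s, Phi F b I (Tm κI s p) = Psi F b I (w s) := fun s => rfl
  have hlim : Tendsto (fun s => Psi F b I (w s)) atBot (𝓝 0) := by
    have := (h.differentiableAt_Psi b I).continuousAt.tendsto.comp hw0
    rwa [h.Psi_zero] at this
  have hre : ∀ᶠ s in atBot, ∀ a, (Tm κI s p a).re < 0 := by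
    refine eventually_all.2 fun a => ?_
    filter_upwards [eventually_lt_atBot (-p.1 a)] with s hs
    rw [Tm_re, hκk]
    exact div_neg_of_neg_of_pos (by linarith) hkR
  have hD : ∀ᶠ s in atBot, Psi F b I (w s) ∈ Dom b Om :=
    hlim.eventually ((isOpen_Dom b h.Omopen).mem_nhds fun j => by
      rw [ell_zero]; exact h.zero_mem)
  have hrest : ∀ j ∈ (Finset.univ.image I)ᶜ, Tendsto
      (fun s => ‖Gm g b κ j (Psi F b I (w s))‖ ^ 2 / Real.exp (2 * s)) atBot (𝓝 0) := by
    intro j hj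
    have hkj := hk' j (Finset.mem_compl.1 hj)
    have h1 : DifferentiableAt ℂ (fun v => g (ell b j (Psi F b I v))) 0 := by
      have h2 : DifferentiableAt ℂ g (ell b j (Psi F b I 0)) := by
        rw [h.Psi_zero, ell_zero]
        exact h.gdiff.differentiableAt (h.Omopen.mem_nhds h.zero_mem)
      exact DifferentiableAt.comp (g := g) (f := fun v => ell b j (Psi F b I v)) 0 h2
        ((hasFDerivAt_ell b j _).differentiableAt.comp 0 (h.differentiableAt_Psi b I))
    have h3 := h1.isBigO_sub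
    simp only [h.Psi_zero, ell_zero, h.g_zero, sub_zero] at h3
    obtain ⟨C, hC⟩ := (h3.comp_tendsto hw0).bound
    obtain ⟨d, hd⟩ := Nat.exists_eq_add_of_lt hkj
    have h4 : Tendsto (fun s => ((C * ‖w 0‖) ^ κ j) ^ 2 * (r s ^ (d + 1)) ^ 2) atBot (𝓝 0) := by
      have := ((hr.pow (d + 1)).pow 2).const_mul (((C * ‖w 0‖) ^ κ j) ^ 2)
      simpa using this
    refine squeeze_zero' (Eventually.of_forall fun s => by positivity) ?_ h4
    filter_upwards [hC] with s hs
    simp only [Function.comp] at hs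
    rw [div_le_iff₀ (Real.exp_pos _), Gm, norm_pow]
    have h5 : Real.exp (2 * s) = (r s ^ k) ^ 2 := by
      simp only [r]
      rw [← Real.exp_nat_mul, ← Real.exp_nat_mul, mul_div_cancel₀ _ hkR.ne']
      norm_num
    have h6 : ‖w s‖ = r s * ‖w 0‖ := by
      rw [hw s, norm_smul, Real.norm_of_nonneg (hr0 s).le]
    rw [h6] at hs
    calc (‖g (ell b j (Psi F b I (w s)))‖ ^ κ j) ^ 2 ≤ ((C * (r s * ‖w 0‖)) ^ κ j) ^ 2 := by
          gcongr
      _ = ((C * ‖w 0‖) ^ κ j) ^ 2 * (r s ^ (d + 1)) ^ 2 * Real.exp (2 * s) := by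
          rw [h5, hd]
          ring
  have hsum := tendsto_finsetSum _ hrest
  rw [Finset.sum_const_zero] at hsum
  have hN := (hsum.const_add (∑ a, Real.exp (2 * p.1 a)))
  rw [add_zero] at hN
  have hfin := (ENNReal.continuous_ofReal.tendsto _).comp
    (((hψc.tendsto _).comp hN).mul_const (∏ a, Real.exp (2 * p.1 a)))
  rw [indicator_of_mem hp, Pi.one_apply, mul_one, Wt]
  refine hfin.congr' ?_
  filter_upwards [hre, hD] with s hs1 hs2
  have hmem : p ∈ Reg F Om b I κ s := ⟨fun a => ⟨hs1 a, by simpa using hp a (mem_univ a)⟩, hs2⟩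
  rw [Xf, indicator_of_mem hmem, h.Nm_split b hI κ hκ s p hs1]
  rfl

/-- The limit at the pole. -/
theorem Conf.tendsto_lower (h : Conf F g Om OmC) (b : Fin N → Fin n → ℝ) {I : Fin n → Fin N}
    (hI : (BI b I).det ≠ 0) (κ : Fin N → ℕ) (hκ : ∀ j, 2 ≤ κ j) (k : ℕ) (hk : ∀ a, κ (I a) = k)
    (hk0 : 0 < k) (hk' : ∀ j, j ∉ Finset.univ.image I → k < κ j) {ψ : ℝ → ℝ} (hψc : Continuous ψ)
    (hψ : Antitone ψ) (hc : ∫⁻ σ : Fin n → ℝ, Wt ψ σ ≠ ∞) :
    Tendsto (fun s => ∫⁻ p, Xf F g Om b I κ ψ s p) atBot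
      (𝓝 ((∫⁻ σ : Fin n → ℝ, Wt ψ σ) * ENNReal.ofReal ((2 * Real.pi) ^ n))) := by
  rw [← volume_Box, ← lintegral_Wt_mul hψc measurableSet_Box]
  refine tendsto_lintegral_filter_of_dominated_convergence'
    (fun p => Wt ψ p.1 * (Box n).indicator 1 p.2)
    (Eventually.of_forall fun s => h.aemeasurable_Xf b I κ hψc s)
    (Eventually.of_forall fun s => Eventually.of_forall fun p => h.Xf_le b hI κ hκ hψ s p) ?_
    (Eventually.of_forall fun p => h.tendsto_Xf_lower b hI κ hκ k hk hk0 hk' hψc hψ p)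
  rw [lintegral_Wt_mul hψc measurableSet_Box, volume_Box]
  exact ENNReal.mul_ne_top hc ENNReal.ofReal_ne_top

/-- Outside the feasible angles the integrand is eventually zero. -/
theorem Conf.eventually_notMem (h : Conf F g Om OmC) (b : Fin N → Fin n → ℝ) (I : Fin n → Fin N)
    (κ : ℕ → Fin N → ℕ) (hκ : ∀ m j, m + 2 ≤ κ m j) (p : (Fin n → ℝ) × (Fin n → ℝ))
    (hp : p.2 ∉ Feas F OmC b I) : ∀ᶠ m in atTop, p ∉ Reg F Om b I (κ m) 0 := by
  have hk : ∀ m a, (0 : ℝ) < κ m (I a) := fun m a => by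
    have := hκ m (I a)
    have h2 : 0 < κ m (I a) := by omega
    exact_mod_cast h2
  by_cases hθ : ∀ k, p.2 k ∈ Icc (-Real.pi) Real.pi
  swap
  · refine Eventually.of_forall fun m hm => hθ fun a => ?_
    exact Ioc_subset_Icc_self (by simpa using (hm.1 a).2)
  by_cases hσ : ∀ a, p.1 a < 0
  swap
  · refine Eventually.of_forall fun m hm => hσ fun a => ?_
    have h1 := (hm.1 a).1
    rw [Tm_re, add_zero, div_neg_iff] at h1
    rcases h1 with h1 | h1
    · exact absurd h1.2 (hk m a).le.not_gt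
    · exact h1.1
  let w : ℕ → Fin n → ℂ := fun m a => exp (Tm (fun a => (κ m (I a) : ℝ)) 0 p a)
  have hw : Tendsto w atTop (𝓝 fun a => exp (p.2 a * Complex.I)) := by
    refine tendsto_pi_nhds.2 fun a => (Complex.continuous_exp.tendsto _).comp ?_
    have h1 : Tendsto (fun m => (κ m (I a) : ℝ)) atTop atTop :=
      tendsto_natCast_atTop_atTop.comp
        (tendsto_atTop_mono (fun m => by have := hκ m (I a); simp only [id]; omega) tendsto_id)
    have h2 : Tendsto (fun m => (p.1 a + 0) / (κ m (I a) : ℝ)) atTop (𝓝 0) :=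
      tendsto_const_nhds.div_atTop h1
    have h3 := ((Complex.continuous_ofReal.tendsto _).comp h2).add_const (p.2 a * Complex.I)
    rw [Complex.ofReal_zero, zero_add] at h3
    exact h3
  have hmem : ∀ m, w m ∈ Set.pi univ fun _ : Fin n => closedBall (0 : ℂ) 1 := by
    intro m a _
    refine ball_subset_closedBall (exp_mem_ball ?_)
    rw [Tm_re, add_zero]
    exact div_neg_of_neg_of_pos (hσ a) (hk m a)
  have hlim : Tendsto (fun m => Psi F b I (w m)) atTop
      (𝓝 (Psi F b I fun a => exp (p.2 a * Complex.I))) :=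
    (h.continuousOn_Psi b I _ (exp_I_mem p.2)).tendsto.comp
      (tendsto_nhdsWithin_iff.2 ⟨hw, Eventually.of_forall hmem⟩)
  have hout : (Psi F b I fun a => exp (p.2 a * Complex.I)) ∈
      {z : Fin n → ℂ | ∀ j, ell b j z ∈ OmC}ᶜ := fun h1 => hp ⟨hθ, h1⟩
  filter_upwards [hlim.eventually
    ((isClosed_forall_ell b h.closed).isOpen_compl.mem_nhds hout)] with m hm hR
  exact hm fun j => h.sub (hR.2 j)

/-- The limit of large exponents. -/
theorem Conf.upper (h : Conf F g Om OmC) (b : Fin N → Fin n → ℝ) {I : Fin n → Fin N}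
    (hI : (BI b I).det ≠ 0) (κ : ℕ → Fin N → ℕ) (hκ : ∀ m j, m + 2 ≤ κ m j) {ψ : ℝ → ℝ}
    (hψc : Continuous ψ) (hψ : Antitone ψ) (hc : ∫⁻ σ : Fin n → ℝ, Wt ψ σ ≠ ∞) :
    ∃ e : ℕ → ℝ≥0∞, Tendsto e atTop (𝓝 0) ∧ ∀ m, ∫⁻ p, Xf F g Om b I (κ m) ψ 0 p ≤
      (∫⁻ σ : Fin n → ℝ, Wt ψ σ) * volume (Feas F OmC b I) + e m := by
  have hκ2 : ∀ m j, 2 ≤ κ m j := fun m j => by have := hκ m j; omega
  let A : Set ((Fin n → ℝ) × (Fin n → ℝ)) := Prod.snd ⁻¹' (Feas F OmC b I)ᶜ
  have hA : MeasurableSet A := (h.measurableSet_Feas b I).compl.preimage measurable_snd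
  refine ⟨fun m => ∫⁻ p, A.indicator (Xf F g Om b I (κ m) ψ 0) p, ?_, fun m => ?_⟩
  · have h1 := tendsto_lintegral_of_dominated_convergence' (μ := volume)
      (F := fun m => A.indicator (Xf F g Om b I (κ m) ψ 0)) (f := fun _ => 0)
      (fun p => Wt ψ p.1 * (Box n).indicator 1 p.2)
      (fun m => (h.aemeasurable_Xf b I (κ m) hψc 0).indicator hA)
      (fun m => Eventually.of_forall fun p =>
        (indicator_le_self _ _ p).trans (h.Xf_le b hI (κ m) (hκ2 m) hψ 0 p)) ?_ ?_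
    · simpa using h1
    · rw [lintegral_Wt_mul hψc measurableSet_Box, volume_Box]
      exact ENNReal.mul_ne_top hc ENNReal.ofReal_ne_top
    · refine Eventually.of_forall fun p => ?_
      by_cases hp : p ∈ A
      · refine tendsto_const_nhds.congr' ?_
        filter_upwards [h.eventually_notMem b I κ hκ p hp] with m hm
        rw [indicator_of_mem hp, Xf, indicator_of_notMem hm]
      · simp only [indicator_of_notMem hp]
        exact tendsto_const_nhds
  · have hm : Measurable fun p : (Fin n → ℝ) × (Fin n → ℝ) =>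
        Wt ψ p.1 * (Feas F OmC b I).indicator 1 p.2 :=
      ((continuous_Wt hψc).measurable.comp measurable_fst).mul
        ((measurable_one.indicator (h.measurableSet_Feas b I)).comp measurable_snd)
    beta_reduce
    rw [← lintegral_Wt_mul hψc (h.measurableSet_Feas b I), ← lintegral_add_left hm]
    refine lintegral_mono fun p => ?_
    by_cases hp : p ∈ A
    · simp only [indicator_of_mem hp]
      exact le_add_self
    · have hp' : p.2 ∈ Feas F OmC b I := not_not.1 hp
      refine le_trans ?_ le_self_add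
      refine (h.Xf_le b hI (κ m) (hκ2 m) hψ 0 p).trans ?_
      simp only [indicator_of_mem hp', Pi.one_apply, mul_one]
      exact mul_le_of_le_one_right' (indicator_le_self _ _ _)

end Vale.Agent.P248Z.Lim
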