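import Vale.Agent.P248Z.Lim.CoV

/-!
# P248, block LIM: rescaled logarithmic coordinates
-/

open Set Metric Complex Matrix MeasureTheory
open scoped ENNReal

namespace Vale.Agent.P248Z.Lim

variable {n N : ℕ} {F g : ℂ → ℂ} {Om OmC : Set ℂ}

/-- The rescaled coordinates `(σ, θ) ↦ (σ + s) / κ + i θ`. -/
noncomputable def Tm (κ : Fin n → ℝ) (s : ℝ) (p : (Fin n → ℝ) × (Fin n → ℝ)) : Fin n → ℂ :=
  fun a => (((p.1 a + s) / κ a : ℝ) : ℂ) + (p.2 a : ℂ) * I

@[simp] theorem Tm_re (κ : Fin n → ℝ) (s : ℝ) (p : (Fin n → ℝ) × (Fin n → ℝ)) (a : Fin n) :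
    (Tm κ s p a).re = (p.1 a + s) / κ a := by
  simp only [Tm, add_re, ofReal_re, mul_re, I_re, mul_zero, ofReal_im, I_im, mul_one, sub_self,
    add_zero]

@[simp] theorem Tm_im (κ : Fin n → ℝ) (s : ℝ) (p : (Fin n → ℝ) × (Fin n → ℝ)) (a : Fin n) :
    (Tm κ s p a).im = p.2 a := by
  simp only [Tm, add_im, ofReal_im, mul_im, ofReal_re, I_im, mul_one, I_re, mul_zero, add_zero,
    zero_add]

theorem continuous_Tm (κ : Fin n → ℝ) (s : ℝ) : Continuous (Tm κ s) := by
  unfold Tm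
  fun_prop

/-- `Tm` as a measurable equivalence. -/
noncomputable def TmE (κ : Fin n → ℝ) (hκ : ∀ a, κ a ≠ 0) (s : ℝ) :
    ((Fin n → ℝ) × (Fin n → ℝ)) ≃ᵐ (Fin n → ℂ) where
  toFun := Tm κ s
  invFun ζ := (fun a => κ a * (ζ a).re - s, fun a => (ζ a).im)
  left_inv p := by
    ext a
    · have := hκ a
      simp only [Tm_re]
      field_simp
      ring
    · simp
  right_inv ζ := by
    funext a
    have := hκ a
    apply Complex.ext
    · simp only [Tm_re]
      field_simp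
      ring
    · simp
  measurable_toFun := (continuous_Tm κ s).measurable
  measurable_invFun := by
    change Measurable fun ζ : Fin n → ℂ =>
      ((fun a => κ a * (ζ a).re - s, fun a => (ζ a).im) : (Fin n → ℝ) × (Fin n → ℝ))
    fun_prop

theorem map_scale (κ : Fin n → ℝ) (hκ : ∀ a, 0 < κ a) (s : ℝ) :
    Measure.map (fun σ : Fin n → ℝ => fun a => (σ a + s) / κ a) volume =
      ENNReal.ofReal (∏ a, κ a) • volume := by
  have h1 : (fun σ : Fin n → ℝ => fun a => (σ a + s) / κ a) =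
      (Matrix.toLin' (Matrix.diagonal fun a => (κ a)⁻¹)) ∘ fun σ => σ + fun _ => s := by
    funext σ a
    simp [Matrix.mulVec_diagonal, div_eq_inv_mul, mul_add]
  have hd : (Matrix.diagonal fun a => (κ a)⁻¹).det = (∏ a, κ a)⁻¹ := by
    rw [Matrix.det_diagonal, Finset.prod_inv_distrib]
  have hp : 0 < ∏ a, κ a := Finset.prod_pos fun a _ => hκ a
  rw [h1, ← Measure.map_map (LinearMap.continuous_on_pi _).measurable (by fun_prop),
    map_add_right_eq_self, Real.map_matrix_volume_pi_eq_smul_volume_pi (by rw [hd]; positivity),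
    hd, inv_inv, abs_of_pos hp]

theorem map_Tm (κ : Fin n → ℝ) (hκ : ∀ a, 0 < κ a) (s : ℝ) :
    Measure.map (Tm κ s) volume = ENNReal.ofReal (∏ a, κ a) • volume := by
  have e1 : MeasurePreserving (MeasurableEquiv.arrowProdEquivProdArrow ℝ ℝ (Fin n)).symm :=
    (volume_measurePreserving_arrowProdEquivProdArrow ℝ ℝ (Fin n)).symm _
  have e2 : MeasurePreserving
      (fun (x : Fin n → ℝ × ℝ) (a : Fin n) => Complex.measurableEquivRealProd.symm (x a)) :=
    volume_preserving_pi fun _ => Complex.volume_preserving_equiv_real_prod.symm _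
  have e3 := e2.comp e1
  have h1 : Tm κ s = ((fun (x : Fin n → ℝ × ℝ) (a : Fin n) =>
      Complex.measurableEquivRealProd.symm (x a)) ∘
        (MeasurableEquiv.arrowProdEquivProdArrow ℝ ℝ (Fin n)).symm) ∘
      Prod.map (fun σ : Fin n → ℝ => fun a => (σ a + s) / κ a) id := by
    funext p a
    apply Complex.ext
    · rw [Tm_re]
      rfl
    · rw [Tm_im]
      rfl
  have hm : Measurable fun σ : Fin n → ℝ => fun a => (σ a + s) / κ a := by fun_prop
  rw [h1, ← Measure.map_map e3.measurable (hm.prodMap measurable_id), Measure.volume_eq_prod,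
    ← Measure.map_prod_map _ _ hm measurable_id, map_scale κ hκ s, Measure.map_id,
    Measure.prod_smul_left, Measure.map_smul, ← Measure.volume_eq_prod, e3.map_eq]

theorem lintegral_Tm (κ : Fin n → ℝ) (hκ : ∀ a, 0 < κ a) (s : ℝ) (f : (Fin n → ℂ) → ℝ≥0∞) :
    ∫⁻ p, f (Tm κ s p) = ENNReal.ofReal (∏ a, κ a) * ∫⁻ ζ, f ζ := by
  have h1 := lintegral_map_equiv (μ := volume) f (TmE κ (fun a => (hκ a).ne') s)
  have h2 : Measure.map (TmE κ (fun a => (hκ a).ne') s) volume =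
      ENNReal.ofReal (∏ a, κ a) • volume := map_Tm κ hκ s
  rw [h2, lintegral_smul_measure, smul_eq_mul] at h1
  exact h1.symm

/-- The domain of integration in the rescaled coordinates. -/
def Reg (F : ℂ → ℂ) (Om : Set ℂ) (b : Fin N → Fin n → ℝ) (I : Fin n → Fin N) (κ : Fin N → ℕ)
    (s : ℝ) : Set ((Fin n → ℝ) × (Fin n → ℝ)) :=
  Tm (fun a => (κ (I a) : ℝ)) s ⁻¹' (Strip n ∩ Phi F b I ⁻¹' Dom b Om)

/-- The integrand in the rescaled coordinates. -/
noncomputable def Xf (F g : ℂ → ℂ) (Om : Set ℂ) (b : Fin N → Fin n → ℝ) (I : Fin n → Fin N)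
    (κ : Fin N → ℕ) (ψ : ℝ → ℝ) (s : ℝ) (p : (Fin n → ℝ) × (Fin n → ℝ)) : ℝ≥0∞ :=
  (Reg F Om b I κ s).indicator (fun p => ENNReal.ofReal
    (ψ (Nm g b κ (Phi F b I (Tm (fun a => (κ (I a) : ℝ)) s p)) / Real.exp (2 * s)) *
      ∏ a, Real.exp (2 * p.1 a))) p

/-- The change of variables, final form. -/
theorem Conf.cov' (h : Conf F g Om OmC) (b : Fin N → Fin n → ℝ) {I : Fin n → Fin N}
    (hI : (BI b I).det ≠ 0) (κ : Fin N → ℕ) (hκ : ∀ j, 2 ≤ κ j) {ψ : ℝ → ℝ} (hψ : ∀ x, 0 ≤ ψ x)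
    (s : ℝ) :
    ∫⁻ z in Dom b Om, ENNReal.ofReal (ψ (Nm g b κ z / Real.exp (2 * s))) *
        ENNReal.ofReal (‖((jac (Gm g b κ) z).submatrix I id).det‖ ^ 2) =
      ENNReal.ofReal (∏ a, (κ (I a) : ℝ)) * ENNReal.ofReal (Real.exp (2 * s) ^ n) *
        ∫⁻ p, Xf F g Om b I κ ψ s p := by
  have hk : ∀ a, (0 : ℝ) < κ (I a) := fun a => by
    have := hκ (I a)
    positivity
  have hp : 0 < ∏ a, (κ (I a) : ℝ) := Finset.prod_pos fun a _ => hk a
  have hne : ENNReal.ofReal (∏ a, (κ (I a) : ℝ)) ≠ 0 := by simpa using hp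
  rw [h.cov b hI κ hκ, ← lintegral_indicator (h.measurableSet_pre b I)]
  refine (ENNReal.mul_right_inj hne ENNReal.ofReal_ne_top).1 ?_
  rw [← lintegral_Tm _ hk s, ← mul_assoc, ← ENNReal.ofReal_mul hp.le,
    ← ENNReal.ofReal_mul hp.le, ← lintegral_const_mul' _ _ ENNReal.ofReal_ne_top]
  refine lintegral_congr fun p => ?_
  by_cases hp' : p ∈ Reg F Om b I κ s
  · have hp'' : Tm (fun a => (κ (I a) : ℝ)) s p ∈ Strip n ∩ Phi F b I ⁻¹' Dom b Om := hp'
    rw [Xf, indicator_of_mem hp', indicator_of_mem hp'', ← ENNReal.ofReal_mul (hψ _),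
      ← ENNReal.ofReal_mul (by positivity)]
    congr 1
    have h1 : ∀ a, (κ (I a) : ℝ) ^ 2 * Real.exp (2 * (κ (I a) *
        (Tm (fun a => (κ (I a) : ℝ)) s p a).re)) =
        (κ (I a) : ℝ) * ((κ (I a) : ℝ) * (Real.exp (2 * s) * Real.exp (2 * p.1 a))) := by
      intro a
      have := (hk a).ne'
      rw [Tm_re, ← Real.exp_add, mul_div_cancel₀ _ this]
      ring_nf
    rw [Finset.prod_congr rfl fun a _ => h1 a, Finset.prod_mul_distrib, Finset.prod_mul_distrib,
      Finset.prod_mul_distrib, Finset.prod_const, Finset.card_univ, Fintype.card_fin]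
    ring
  · have hp'' : Tm (fun a => (κ (I a) : ℝ)) s p ∉ Strip n ∩ Phi F b I ⁻¹' Dom b Om := hp'
    rw [Xf, indicator_of_notMem hp', indicator_of_notMem hp'', mul_zero]

end Vale.Agent.P248Z.Lim
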