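import Vale.Agent.P248Z.Lim.CB

/-!
# P248, block LIM: the set-up

`F` maps the unit disc conformally onto `Om`, with inverse `g`.  For linear forms `b j` on `ℂ^n`
we put `Dom = {z | ∀ j, b j z ∈ Om}` and `Gm j z = g (b j z) ^ κ j`.
-/

open Set Metric Complex Matrix

namespace Vale.Agent.P248Z.Lim

/-- The properties of the conformal map that are used. -/
structure Conf (F g : ℂ → ℂ) (Om OmC : Set ℂ) : Prop where
  Fcont : ContinuousOn F (closedBall 0 1)
  Fdiff : DifferentiableOn ℂ F (ball 0 1)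
  Fzero : F 0 = 0
  Omopen : IsOpen Om
  Fmaps : MapsTo F (ball 0 1) Om
  gdiff : DifferentiableOn ℂ g Om
  gmaps : MapsTo g Om (ball 0 1)
  gF : ∀ w ∈ ball (0 : ℂ) 1, g (F w) = w
  Fg : ∀ w ∈ Om, F (g w) = w
  closed : IsClosed OmC
  sub : Om ⊆ OmC

variable {n N : ℕ}

/-- The complex linear form with real coefficients `b j`. -/
noncomputable def ell (b : Fin N → Fin n → ℝ) (j : Fin N) (z : Fin n → ℂ) : ℂ :=
  ∑ l, (b j l : ℂ) * z l

/-- The domain in `ℂ^n`. -/
def Dom (b : Fin N → Fin n → ℝ) (Om : Set ℂ) : Set (Fin n → ℂ) := {z | ∀ j, ell b j z ∈ Om}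

/-- The holomorphic map. -/
noncomputable def Gm (g : ℂ → ℂ) (b : Fin N → Fin n → ℝ) (κ : Fin N → ℕ) (j : Fin N)
    (z : Fin n → ℂ) : ℂ :=
  g (ell b j z) ^ κ j

/-- The square of the norm of the holomorphic map. -/
noncomputable def Nm (g : ℂ → ℂ) (b : Fin N → Fin n → ℝ) (κ : Fin N → ℕ) (z : Fin n → ℂ) : ℝ :=
  ∑ j, ‖Gm g b κ j z‖ ^ 2

/-- The square matrix with rows `b (I a)`. -/
noncomputable def BI (b : Fin N → Fin n → ℝ) (I : Fin n → Fin N) : Matrix (Fin n) (Fin n) ℂ :=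
  Matrix.of fun a l => (b (I a) l : ℂ)

/-- The point `z` with `b (I a) z = F (w a)`. -/
noncomputable def Psi (F : ℂ → ℂ) (b : Fin N → Fin n → ℝ) (I : Fin n → Fin N) (w : Fin n → ℂ) :
    Fin n → ℂ :=
  (BI b I)⁻¹ *ᵥ fun a => F (w a)

/-- The parametrisation by logarithmic coordinates. -/
noncomputable def Phi (F : ℂ → ℂ) (b : Fin N → Fin n → ℝ) (I : Fin n → Fin N) (ζ : Fin n → ℂ) :
    Fin n → ℂ :=
  Psi F b I fun a => exp (ζ a)

/-- The product of half strips. -/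
def Strip (n : ℕ) : Set (Fin n → ℂ) :=
  {ζ | ∀ a, (ζ a).re < 0 ∧ (ζ a).im ∈ Ioc (-Real.pi) Real.pi}

theorem det_BI (b : Fin N → Fin n → ℝ) (I : Fin n → Fin N) :
    (BI b I).det = ((Matrix.of fun k l => b (I k) l).det : ℝ) :=
  (RingHom.map_det (algebraMap ℝ ℂ) (Matrix.of fun k l => b (I k) l)).symm

theorem ell_eq_mulVec (b : Fin N → Fin n → ℝ) (I : Fin n → Fin N) (z : Fin n → ℂ) (a : Fin n) :
    ell b (I a) z = (BI b I *ᵥ z) a := rfl

/-- The form `ell b j` as a continuous linear map. -/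
noncomputable def ellL (b : Fin N → Fin n → ℝ) (j : Fin N) : (Fin n → ℂ) →L[ℂ] ℂ :=
  ∑ l, (b j l : ℂ) • ContinuousLinearMap.proj l

theorem ellL_apply (b : Fin N → Fin n → ℝ) (j : Fin N) (z : Fin n → ℂ) :
    ellL b j z = ell b j z := by
  simp [ellL, ell]

theorem hasFDerivAt_ell (b : Fin N → Fin n → ℝ) (j : Fin N) (z : Fin n → ℂ) :
    HasFDerivAt (ell b j) (ellL b j) z := by
  have h : ell b j = ellL b j := funext fun z => (ellL_apply b j z).symm
  rw [h]
  exact (ellL b j).hasFDerivAt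

theorem continuous_ell (b : Fin N → Fin n → ℝ) (j : Fin N) : Continuous (ell b j) := by
  have h : ell b j = ellL b j := funext fun z => (ellL_apply b j z).symm
  rw [h]
  exact (ellL b j).continuous

theorem ell_single (b : Fin N → Fin n → ℝ) (j : Fin N) (l : Fin n) :
    ell b j (Pi.single l 1) = b j l := by
  simp [ell, Pi.single_apply]

theorem ell_zero (b : Fin N → Fin n → ℝ) (j : Fin N) : ell b j 0 = 0 := by
  simp [ell]

theorem isOpen_Dom (b : Fin N → Fin n → ℝ) {Om : Set ℂ} (h : IsOpen Om) : IsOpen (Dom b Om) := by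
  have : Dom b Om = ⋂ j, ell b j ⁻¹' Om := by
    ext z
    simp [Dom]
  rw [this]
  exact isOpen_iInter_of_finite fun j => h.preimage (continuous_ell b j)

variable {F g : ℂ → ℂ} {Om OmC : Set ℂ}

theorem Conf.zero_mem (h : Conf F g Om OmC) : (0 : ℂ) ∈ Om := by
  have := h.Fmaps (mem_ball_self one_pos)
  rwa [h.Fzero] at this

theorem Conf.g_zero (h : Conf F g Om OmC) : g 0 = 0 := by
  have := h.gF 0 (mem_ball_self one_pos)
  rwa [h.Fzero] at this

theorem Conf.diff_Gm (h : Conf F g Om OmC) (b : Fin N → Fin n → ℝ) (κ : Fin N → ℕ) (j : Fin N) :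
    DifferentiableOn ℂ (Gm g b κ j) (Dom b Om) := by
  intro z hz
  have h1 : DifferentiableAt ℂ g (ell b j z) := h.gdiff.differentiableAt (h.Omopen.mem_nhds (hz j))
  have h2 : DifferentiableAt ℂ (fun z => g (ell b j z)) z :=
    h1.comp z (hasFDerivAt_ell b j z).differentiableAt
  exact (h2.pow (κ j)).differentiableWithinAt

theorem Conf.cont_Nm (h : Conf F g Om OmC) (b : Fin N → Fin n → ℝ) (κ : Fin N → ℕ) :
    ContinuousOn (Nm g b κ) (Dom b Om) := by
  unfold Nm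
  refine continuousOn_finsetSum _ fun j _ => ?_
  exact ((h.diff_Gm b κ j).continuousOn.norm).pow 2

theorem Conf.jac_Gm (h : Conf F g Om OmC) (b : Fin N → Fin n → ℝ) (κ : Fin N → ℕ)
    {z : Fin n → ℂ} (hz : z ∈ Dom b Om) (j : Fin N) (l : Fin n) :
    jac (Gm g b κ) z j l = deriv (fun w => g w ^ κ j) (ell b j z) * b j l := by
  have h1 : DifferentiableAt ℂ (fun w => g w ^ κ j) (ell b j z) :=
    (h.gdiff.differentiableAt (h.Omopen.mem_nhds (hz j))).pow _
  have h2 : HasFDerivAt (Gm g b κ j)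
      (deriv (fun w => g w ^ κ j) (ell b j z) • ellL b j) z :=
    h1.hasDerivAt.comp_hasFDerivAt z (hasFDerivAt_ell b j z)
  unfold jac
  rw [h2.fderiv, _root_.smul_apply, ellL_apply, ell_single, smul_eq_mul]

theorem Conf.det_jac (h : Conf F g Om OmC) (b : Fin N → Fin n → ℝ) (κ : Fin N → ℕ)
    {z : Fin n → ℂ} (hz : z ∈ Dom b Om) (I : Fin n → Fin N) :
    ((jac (Gm g b κ) z).submatrix I id).det =
      (∏ a, deriv (fun w => g w ^ κ (I a)) (ell b (I a) z)) * (BI b I).det := by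
  rw [← Matrix.det_diagonal, ← Matrix.det_mul]
  congr 1
  ext a l
  rw [Matrix.diagonal_mul, Matrix.submatrix_apply, id, h.jac_Gm b κ hz]
  rfl

theorem ell_Psi (b : Fin N → Fin n → ℝ) {I : Fin n → Fin N} (hI : (BI b I).det ≠ 0)
    (w : Fin n → ℂ) (a : Fin n) : ell b (I a) (Psi F b I w) = F (w a) := by
  rw [ell_eq_mulVec, Psi, Matrix.mulVec_mulVec, Matrix.mul_nonsing_inv _ (Ne.isUnit hI),
    Matrix.one_mulVec]

theorem eq_Psi (b : Fin N → Fin n → ℝ) {I : Fin n → Fin N} (hI : (BI b I).det ≠ 0)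
    {w z : Fin n → ℂ} (hz : ∀ a, ell b (I a) z = F (w a)) : z = Psi F b I w := by
  have h1 : (fun a => F (w a)) = BI b I *ᵥ z := funext fun a => (hz a).symm
  rw [Psi, h1, Matrix.mulVec_mulVec, Matrix.nonsing_inv_mul _ (Ne.isUnit hI), Matrix.one_mulVec]

theorem injective_of_det (b : Fin N → Fin n → ℝ) {I : Fin n → Fin N} (hI : (BI b I).det ≠ 0) :
    Function.Injective I := by
  intro a c hac
  by_contra hne
  apply hI
  refine Matrix.det_zero_of_row_eq hne ?_
  ext l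
  simp [BI, hac]

theorem exp_mem_ball {ζ : ℂ} (h : ζ.re < 0) : exp ζ ∈ ball (0 : ℂ) 1 := by
  rw [mem_ball_zero_iff, Complex.norm_exp]
  exact Real.exp_lt_one_iff.2 h

theorem Conf.g_ell_Phi (h : Conf F g Om OmC) (b : Fin N → Fin n → ℝ) {I : Fin n → Fin N}
    (hI : (BI b I).det ≠ 0) {ζ : Fin n → ℂ} {a : Fin n} (ha : (ζ a).re < 0) :
    g (ell b (I a) (Phi F b I ζ)) = exp (ζ a) := by
  rw [Phi, ell_Psi b hI, h.gF _ (exp_mem_ball ha)]

/-- The sublevel sets of `Nm` are compact. -/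
theorem Conf.isCompact_sublevel (h : Conf F g Om OmC) (b : Fin N → Fin n → ℝ) {I : Fin n → Fin N}
    (hI : (BI b I).det ≠ 0) (κ : Fin N → ℕ) {τ : ℝ} (hτ : τ < 1) :
    IsCompact {z | z ∈ Dom b Om ∧ ∑ j, ‖Gm g b κ j z‖ ^ 2 ≤ τ} := by
  -- the compact pieces of `Om`
  let C : Fin N → Set ℂ := fun j => F '' {w | ‖w‖ ≤ 1 ∧ (‖w‖ ^ κ j) ^ 2 ≤ τ}
  have hsub : ∀ j, {w : ℂ | ‖w‖ ≤ 1 ∧ (‖w‖ ^ κ j) ^ 2 ≤ τ} ⊆ ball 0 1 := by
    intro j w hw
    rw [mem_ball_zero_iff]
    refine lt_of_le_of_ne hw.1 fun h1 => ?_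
    have h2 := hw.2
    rw [h1] at h2
    simp only [one_pow] at h2
    linarith
  have hC : ∀ j, IsCompact (C j) := by
    intro j
    refine IsCompact.image_of_continuousOn ?_ (h.Fcont.mono ((hsub j).trans ball_subset_closedBall))
    refine (isCompact_closedBall (0 : ℂ) 1).of_isClosed_subset ?_
      ((hsub j).trans ball_subset_closedBall)
    exact (isClosed_le continuous_norm continuous_const).inter
      (isClosed_le ((continuous_norm.pow (κ j)).pow 2) continuous_const)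
  have hCO : ∀ j, C j ⊆ Om := by
    rintro j _ ⟨w, hw, rfl⟩
    exact h.Fmaps (hsub j hw)
  let K : Set (Fin n → ℂ) := {z | ∀ j, ell b j z ∈ C j}
  have hKc : IsClosed K := by
    have : K = ⋂ j, ell b j ⁻¹' C j := by
      ext z
      simp [K]
    rw [this]
    exact isClosed_iInter fun j => (hC j).isClosed.preimage (continuous_ell b j)
  have hK : IsCompact K := by
    have h1 : IsCompact ((fun y : Fin n → ℂ => (BI b I)⁻¹ *ᵥ y) '' Set.pi univ fun a => C (I a)) :=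
      (isCompact_univ_pi fun a => hC (I a)).image (by fun_prop)
    refine h1.of_isClosed_subset hKc fun z hz => ⟨BI b I *ᵥ z, fun a _ => hz (I a), ?_⟩
    simp only
    rw [Matrix.mulVec_mulVec, Matrix.nonsing_inv_mul _ (Ne.isUnit hI), Matrix.one_mulVec]
  have hKD : K ⊆ Dom b Om := fun z hz j => hCO j (hz j)
  have heq : {z | z ∈ Dom b Om ∧ ∑ j, ‖Gm g b κ j z‖ ^ 2 ≤ τ} = K ∩ Nm g b κ ⁻¹' Iic τ := by
    ext z
    constructor
    · rintro ⟨hz, hτ'⟩
      refine ⟨fun j => ⟨g (ell b j z), ⟨?_, ?_⟩, h.Fg _ (hz j)⟩, hτ'⟩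
      · exact (mem_ball_zero_iff.1 (h.gmaps (hz j))).le
      · refine le_trans ?_ hτ'
        have := Finset.single_le_sum (f := fun j => ‖Gm g b κ j z‖ ^ 2)
          (fun i _ => by positivity) (Finset.mem_univ j)
        rwa [Gm, norm_pow] at this
    · rintro ⟨hz, hτ'⟩
      exact ⟨hKD hz, hτ'⟩
  rw [heq]
  exact hK.of_isClosed_subset
    (((h.cont_Nm b κ).mono hKD).preimage_isClosed_of_isClosed hKc isClosed_Iic) inter_subset_left

end Vale.Agent.P248Z.Lim
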